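import Vale.Agent.P220Z.Rig.Defs
import Vale.Agent.P220Z.Top.Join

/-!
# P220, the suspended horseshoe over a torus: definitions and statements

`U = ℂ (w) × ℂ (p) × V`, `V = ℂ⁵ × ℂ`. The group `G5` acts on `ℂ⁵` by scalars (first factor) and by
the cyclic shift (second factor).
-/

open Set
open scoped ContDiff RealInnerProductSpace

namespace Vale.Agent.P220Z.Hf

open Vale.Agent.P220Z.Def Vale.Agent.P220Z.Rig Vale.Agent.P220Z.Top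

/-- `e (t) = exp (2 π i t)` -/
noncomputable def ee (t : ℝ) : ℂ := Complex.exp (2 * Real.pi * t * Complex.I)

/-- zero on `(-∞, 0]`, with positive derivative on `(0, ∞)` -/
noncomputable def ps (t : ℝ) : ℝ := t * Real.smoothTransition t

/-- `1` for the letter `g`, `0` for the letter `-1` -/
def ind (ε : Bool) : ℝ := if ε then 1 else 0

/-- the step from `0` to `1` on `[s₀ / 4, 3 s₀ / 4]` -/
noncomputable def stp (s₀ s : ℝ) : ℝ := max 0 (min 1 ((s - s₀ / 4) / (s₀ / 2)))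

/-! ### the fibre -/

/-- the fibre; the coordinate `none` carries the trivial action -/
abbrev Vf : Type := EuclideanSpace ℂ (Option (ZMod 5))

/-- a diagonal matrix -/
noncomputable def dg (u : Option (ZMod 5) → ℂ) : Vf →L[ℝ] Vf :=
  LinearMap.toContinuousLinearMap
    { toFun := fun v => WithLp.toLp 2 fun i => u i * v i
      map_add' := fun v v' => by
        ext i
        simp [mul_add]
      map_smul' := fun c v => by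
        ext i
        simp [mul_left_comm] }

@[simp] theorem dg_apply (u : Option (ZMod 5) → ℂ) (v : Vf) (i : Option (ZMod 5)) :
    dg u v i = u i * v i := rfl

/-- the diagonal matrices that preserve the torus -/
def Tor (u : Option (ZMod 5) → ℂ) : Prop := (∀ i, ‖u i‖ = 1) ∧ ∏ j : ZMod 5, u (some j) = 1

/-- the scalar `e (θ / 5)` on `ℂ⁵` -/
noncomputable def Dth (θ : ℝ) : Vf →L[ℝ] Vf := dg fun i => i.elim 1 fun _ => ee (θ / 5)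

/-- the generator of `Dth` -/
noncomputable def Ig : Vf →L[ℝ] Vf := dg fun i => i.elim 0 fun _ => 2 * Real.pi * Complex.I / 5

/-- `diag (conj κ, 1, 1, 1, 1; κ)` -/
noncomputable def B0 (κ : ℂ) : Vf →L[ℝ] Vf :=
  dg fun i => i.elim κ fun j => if j = 0 then (starRingEnd ℂ) κ else 1

/-- the shift by `b` -/
noncomputable def shf (b : ZMod 5) (v : Vf) : Vf := WithLp.toLp 2 fun i => v (i.map (· - b))

@[simp] theorem shf_apply (b : ZMod 5) (v : Vf) (i : Option (ZMod 5)) :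
    shf b v i = v (i.map (· - b)) := rfl

/-- the character of the scalars -/
noncomputable def chr (a : ZMod 5) (i : Option (ZMod 5)) : ℂ := i.elim 1 fun _ => (om a : ℂ)

theorem norm_act (a b : ZMod 5) (v : Vf) : ‖dg (chr a) (shf b v)‖ = ‖v‖ := by
  rw [EuclideanSpace.norm_eq, EuclideanSpace.norm_eq]
  congr 1
  refine Fintype.sum_equiv (Equiv.optionCongr (Equiv.subRight b)) _ _ fun i => ?_
  cases i <;> simp [chr, Circle.norm_coe]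

/-- the action on the fibre -/
noncomputable def ρV : G5 →* (Vf ≃ₗᵢ[ℝ] Vf) where
  toFun g :=
    { toFun := fun v => dg (chr g.toAdd.1) (shf g.toAdd.2 v)
      invFun := fun v => dg (chr (-g.toAdd.1)) (shf (-g.toAdd.2) v)
      map_add' := fun v v' => by
        ext i
        simp [mul_add]
      map_smul' := fun c v => by
        ext i
        simp [mul_left_comm]
      left_inv := fun v => by
        ext i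
        cases i <;> simp [chr, om, ← mul_assoc, ← Circle.coe_mul, ← AddChar.map_add_eq_mul]
      right_inv := fun v => by
        ext i
        cases i <;> simp [chr, om, ← mul_assoc, ← Circle.coe_mul, ← AddChar.map_add_eq_mul]
      norm_map' := fun v => norm_act _ _ v }
  map_one' := by
    ext v i
    cases i <;> simp [chr, om]
  map_mul' g h := by
    ext v i
    cases i <;> simp [chr, om, AddChar.map_add_eq_mul, mul_assoc, sub_sub]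

theorem ρV_apply (g : G5) (v : Vf) : ρV g v = dg (chr g.toAdd.1) (shf g.toAdd.2 v) := rfl

/-- the vector `(u ζ^(c j))_j; u'`; these form the fixed space of `(c, 1) ∈ G5` -/
noncomputable def ln (c : ZMod 5) (u : ℂ × ℂ) : Vf :=
  WithLp.toLp 2 fun i => i.elim u.2 fun j => (om (c * j) : ℂ) * u.1

/-- the wall in the fibre -/
noncomputable def ψV (v : Vf) : ℝ := ps (‖v‖ ^ 2 - 49)

/-- the coefficient of the radial contraction in the fibre -/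
noncomputable def rad (v : Vf) : ℝ := Real.smoothTransition (‖v‖ ^ 2 - 36)

/-- The function `q` vanishes on the torus, `Y` is a descending field, `Bs` and `Ds` untwist. -/
structure IsFb (q : Vf → ℝ) (Y : Vf → Vf) (Bs : ℝ × ℂ → Vf →L[ℝ] Vf)
    (Ds : ℝ × ℝ → Vf →L[ℝ] Vf) : Prop where
  sq : ContDiff ℝ ∞ q
  sY : ContDiff ℝ ∞ Y
  nonneg : ∀ v, 0 ≤ q v
  torq : ∀ u, Tor u → ∀ v, q (dg u v) = q v
  torY : ∀ u, Tor u → ∀ v, Y (dg u v) = dg u (Y v)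
  shq : ∀ b v, q (shf b v) = q v
  shY : ∀ b v, Y (shf b v) = shf b (Y v)
  dec : ∀ v, fderiv ℝ q v (Y v) ≤ 0
  str : ∀ v, 0 < q v → q v ≤ 1 → fderiv ℝ q v (Y v) < 0
  far : ∀ v, 6 ≤ ‖v‖ → Y v = 0 ∧ 0 ≤ fderiv ℝ q v v ∧ 1 < q v
  fix : ∀ v, q v = 0 → Y v = 0
  zero : ∀ c u, q (ln c u) = 0 ↔ u.1 ^ 5 = 1 ∧ u.2 = 0
  sink : ∃ δ > 0, ∀ c u u₀, q (ln c u₀) = 0 → u ≠ u₀ → ‖ln c u - ln c u₀‖ < δ →
    ⟪Y (ln c u), ln c u - ln c u₀⟫ < 0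
  sB : ContDiff ℝ ∞ Bs
  B_zero : ∀ κ, Bs (0, κ) = B0 κ
  B_one : ∀ κ v, Bs (1, κ) v = v
  B_iso : ∀ s ∈ Icc (0 : ℝ) 1, ∀ κ, ‖κ‖ = 1 → ∀ v, ‖Bs (s, κ) v‖ = ‖v‖
  cD : Continuous Ds
  D_zero : ∀ θ, Ds (0, θ) = Dth θ
  D_one : ∀ θ v, Ds (1, θ) v = v
  D_le : ∀ s ∈ Icc (0 : ℝ) 1, ∀ θ v, ‖Ds (s, θ) v‖ ≤ ‖v‖
  D_int : ∀ s ∈ Icc (0 : ℝ) 1, ∀ (n : ℤ) v, q (Ds (s, n) v) = q v

/-! ### the planar model -/

/-- the data of the planar model; `l ∈ [0, 2]` is the parameter, `z = (w, p)` -/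
structure PlD where
  /-- the walls -/
  Ψ : ℝ × (ℂ × ℂ) → ℝ
  /-- `1` on the template, `0` on the base -/
  μ : ℝ × (ℂ × ℂ) → ℝ
  /-- the radial speed -/
  ρ : ℝ × (ℂ × ℂ) → ℝ
  /-- the field in the slices -/
  Xp : ℝ × (ℂ × ℂ) → ℂ
  /-- the contraction near the axis -/
  k : ℂ × ℂ → ℝ
  /-- the speed of the twist -/
  j : ℂ × ℂ → ℝ
  /-- the twist -/
  κ : ℂ × ℂ → ℂ
  /-- the correction of the label -/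
  Θ : ℂ × ℂ → ℝ
  /-- the radial speed on the core -/
  η : ℝ → ℝ
  /-- the length of the window after the slit -/
  s₀ : ℝ
  /-- the core of the slice -/
  C₀ : Set ℂ
  /-- the two boxes -/
  C : Bool → Set ℂ
  /-- the linear part of the return map -/
  M : Bool → ℂ →L[ℝ] ℂ
  /-- its translation part -/
  c : Bool → ℂ

/-- the planar field -/
noncomputable def PlD.Y (D : PlD) (l : ℝ) (z : ℂ × ℂ) : ℂ × ℂ :=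
  ((2 * Real.pi * Complex.I + D.ρ (l, z)) * z.1, D.Xp (l, z))

/-- the return map on a box -/
noncomputable def PlD.H (D : PlD) (ε : Bool) (p : ℂ) : ℂ := D.M ε p + D.c ε

/-- the return maps along a word, the head acts first -/
noncomputable def PlD.Hw (D : PlD) : List Bool → ℂ → ℂ
  | [], p => p
  | ε :: w, p => D.Hw w (D.H ε p)

/-- the linear part -/
noncomputable def PlD.Mw (D : PlD) : List Bool → ℂ →L[ℝ] ℂ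
  | [] => ContinuousLinearMap.id ℝ ℂ
  | ε :: w => (D.Mw w).comp (D.M ε)

/-- the cylinder of a word -/
def PlD.Cw (D : PlD) : List Bool → Set ℂ
  | [] => univ
  | ε :: w => {p | p ∈ D.C ε ∧ D.H ε p ∈ D.Cw w}

/-- the product of the signs of the letters -/
def sgw : List Bool → ℝ
  | [] => 1
  | ε :: w => (if ε then 1 else -1) * sgw w

/-- The static properties of the planar model. -/
structure IsPl (D : PlD) : Prop where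
  sΨ : ContDiff ℝ ∞ D.Ψ
  sμ : ContDiff ℝ ∞ D.μ
  sρ : ContDiff ℝ ∞ D.ρ
  sX : ContDiff ℝ ∞ D.Xp
  sk : ContDiff ℝ ∞ D.k
  sj : ContDiff ℝ ∞ D.j
  sκ : ContDiff ℝ ∞ D.κ
  Ψ_nonneg : ∀ y, 0 ≤ D.Ψ y
  μ_mem : ∀ y, D.μ y ∈ Icc (0 : ℝ) 1
  k_nonneg : ∀ z, 0 ≤ D.k z
  kμ : ∀ l z, D.k z ≠ 0 → D.μ (l, z) = 0
  bdd : ∃ R, ∀ l ∈ Icc (0 : ℝ) 2, ∀ z, R ≤ ‖z‖ → 1 < D.Ψ (l, z)
  dΨ : ∀ l ∈ Icc (0 : ℝ) 2, ∀ z, D.Ψ (l, z) ≤ 1 →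
    fderiv ℝ (fun y => D.Ψ (l, y)) z (D.Y l z) ≤ 0
  dΨ' : ∀ l ∈ Icc (0 : ℝ) 2, ∀ z, D.Ψ (l, z) ≤ 1 → 0 < D.Ψ (l, z) →
    fderiv ℝ (fun y => D.Ψ (l, y)) z (D.Y l z) < 0
  dμ : ∀ l ∈ Icc (0 : ℝ) 2, ∀ z, D.Ψ (l, z) ≤ 1 →
    fderiv ℝ (fun y => D.μ (l, y)) z (D.Y l z) ≤ 0
  dμ' : ∀ l ∈ Icc (0 : ℝ) 2, ∀ z, D.Ψ (l, z) = 0 → 0 < D.μ (l, z) → D.μ (l, z) < 1 →
    fderiv ℝ (fun y => D.μ (l, y)) z (D.Y l z) < 0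
  axis : ∀ z : ℂ × ℂ, ‖z.1‖ ≤ 1 / 8 → D.ρ (0, z) = -1 ∧ D.Xp (0, z) = -z.2 ∧ D.k z = 1
  base : ∀ l, ∀ z : ℂ × ℂ, ‖z.1‖ ≤ 1 / 4 → D.μ (l, z) = 0
  starw : ∀ w p, D.μ (0, (w, p)) = 0 → ∀ u ∈ Icc (0 : ℝ) 1,
    D.μ (0, ((u : ℂ) * w, p)) = 0 ∧ D.Ψ (0, ((u : ℂ) * w, p)) ≤ D.Ψ (0, (w, p))
  starp : ∀ p, ∀ u ∈ Icc (0 : ℝ) 1, D.Ψ (0, (0, (u : ℂ) * p)) ≤ D.Ψ (0, (0, p))
  slice : ∀ l ∈ Icc (0 : ℝ) 1, ∀ r : ℝ, 0 ≤ r → ∀ p,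
    D.Ψ (l, (-r, p)) = D.Ψ (0, (-r, p)) ∧ D.μ (l, (-r, p)) = D.μ (0, (-r, p)) ∧ D.κ (-r, p) = 1
  uni : ∀ z, D.μ (0, z) ≠ 0 → ‖D.κ z‖ = 1
  lift : ∀ z, D.Ψ (0, z) ≤ 1 → D.μ (0, z) ≠ 0 →
    fderiv ℝ D.κ z (D.Y 0 z) = 2 * Real.pi * Complex.I * D.j z * D.κ z
  dead : ∀ r : ℝ, 0 ≤ r → ∀ p, D.Ψ (1, (r, p)) ≤ 1 → D.μ (1, (r, p)) = 0
  fin : ∀ z, D.μ (2, z) = 0
  fin0 : D.Ψ (2, 0) = 0
  finr : ∀ z, 0 ≤ fderiv ℝ (fun y => D.Ψ (2, y)) z z ∧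
    (0 < D.Ψ (2, z) → 0 < fderiv ℝ (fun y => D.Ψ (2, y)) z z)

/-- The dynamics on the core of the planar model (`l = 0`). The angle `s` is measured from the
slit: `w = -r e (s)`. -/
structure IsCore (D : PlD) : Prop where
  s_pos : 0 < D.s₀ ∧ D.s₀ < 1 / 10
  sη : ContDiff ℝ ∞ D.η
  η_pos : ∀ r ∈ Ioo (1 / 2 : ℝ) 1, 0 < D.η r
  η_one : D.η 1 = 0
  η_neg : ∀ r ∈ Ioo (1 : ℝ) (3 / 2), D.η r < 0
  cΘ : ContinuousOn D.Θ {z | z.1 ≠ 0}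
  op : IsOpen D.C₀ ∧ ∀ ε, IsOpen (D.C ε)
  disj : Disjoint (D.C true) (D.C false)
  sub : ∀ ε, ∀ p ∈ D.C ε, p ∈ D.C₀ ∧ D.H ε p ∈ D.C₀
  /-- nothing moves in the window -/
  win : ∀ r ∈ Ioo (3 / 4 : ℝ) (5 / 4), ∀ s ∈ Icc (0 : ℝ) D.s₀, ∀ p ∈ D.C₀,
    D.Ψ (0, (-r * ee s, p)) = 0 ∧ D.μ (0, (-r * ee s, p)) = 1 ∧ D.ρ (0, (-r * ee s, p)) = D.η r ∧
      D.Xp (0, (-r * ee s, p)) = 0 ∧ D.j (-r * ee s, p) = 0 ∧ D.κ (-r * ee s, p) = 1 ∧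
      ∀ ε, p ∈ D.C ε → D.Θ (-r * ee s, p) = stp D.s₀ s * ind ε
  /-- one turn -/
  turn : ∀ ε, ∀ p ∈ D.C ε, ∃ (P : ℝ → ℂ) (θ : ℝ → ℝ), P 0 = p ∧ P 1 = D.H ε p ∧ θ 0 = 0 ∧
    θ 1 = ind ε ∧ ∀ s ∈ Icc (0 : ℝ) 1, ∀ r ∈ Ioo (3 / 4 : ℝ) (5 / 4),
      HasDerivAt P (D.Xp (0, (-r * ee s, P s))) s ∧ HasDerivAt θ (D.j (-r * ee s, P s)) s ∧
      D.Ψ (0, (-r * ee s, P s)) = 0 ∧ D.μ (0, (-r * ee s, P s)) = 1 ∧
      D.ρ (0, (-r * ee s, P s)) = D.η r ∧ θ s + D.Θ (-r * ee s, P s) = stp D.s₀ s * ind ε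
  /-- closed orbits off the axis are in the core -/
  per : ∀ (c : ℝ → ℂ × ℂ) (T : ℝ), 0 < T → (∀ t, HasDerivAt c (D.Y 0 (c t)) t) →
    (∀ t, c (t + T) = c t) → (∀ t, D.Ψ (0, c t) = 0) → (c 0).1 ≠ 0 →
    ∀ t, ‖(c t).1‖ = 1 ∧ ((c t).1 = -1 → ∃ ε, (c t).2 ∈ D.C ε)
  /-- every word has a closed orbit, and its index -/
  word : ∀ w : List Bool, w ≠ [] → (∃ p ∈ D.Cw w, D.Hw w p = p) ∧
    (ContinuousLinearMap.id ℝ ℂ - D.Mw w).det * sgw w < 0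

/-! ### the domain and the fields -/

/-- the ambient space -/
abbrev Uh : Type := WithLp 2 (WithLp 2 (ℂ × ℂ) × Vf)

/-- the planar part -/
def pl (x : Uh) : ℂ × ℂ := (x.fst.fst, x.fst.snd)

/-- a point of the ambient space -/
def mk (z : ℂ × ℂ) (v : Vf) : Uh := WithLp.toLp 2 (WithLp.toLp 2 z, v)

@[simp] theorem pl_mk (z : ℂ × ℂ) (v : Vf) : pl (mk z v) = z := rfl

@[simp] theorem snd_mk (z : ℂ × ℂ) (v : Vf) : (mk z v).snd = v := rfl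

theorem mk_eta (x : Uh) : mk (pl x) x.snd = x := rfl

/-- the action on the ambient space -/
noncomputable def ρU : G5 →* (Uh ≃ₗᵢ[ℝ] Uh) where
  toFun g := LinearIsometryEquiv.withLpProdCongr 2 (LinearIsometryEquiv.refl ℝ _) (ρV g)
  map_one' := by
    ext x : 1
    rw [map_one]
    rfl
  map_mul' g h := by
    ext x : 1
    simp

theorem ρU_mk (g : G5) (z : ℂ × ℂ) (v : Vf) : ρU g (mk z v) = mk z (ρV g v) := rfl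

variable (D : PlD) (q : Vf → ℝ) (Y : Vf → Vf)

/-- the untwisted function -/
noncomputable def Fb (l : ℝ) (x : Uh) : ℝ :=
  D.Ψ (l, pl x) + ψV x.snd + D.μ (l, pl x) * q x.snd

/-- the untwisted field -/
noncomputable def Xb (l : ℝ) (x : Uh) : Uh :=
  mk (D.Y l (pl x)) (D.μ (l, pl x) • Y x.snd - (rad x.snd + D.k (pl x)) • x.snd)

/-- the twisted function -/
noncomputable def Ft (x : Uh) : ℝ :=
  D.Ψ (0, pl x) + ψV x.snd + D.μ (0, pl x) * q (B0 (D.κ (pl x)) x.snd)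

/-- the twisted field -/
noncomputable def Xt (x : Uh) : Uh :=
  mk (D.Y 0 (pl x)) (D.μ (0, pl x) • B0 ((starRingEnd ℂ) (D.κ (pl x))) (Y (B0 (D.κ (pl x)) x.snd)) -
    (rad x.snd + D.k (pl x)) • x.snd + D.j (pl x) • Ig x.snd)

/-- the defining function of the domain -/
noncomputable def φ0 (x : Uh) : ℝ := Ft D q x - 1 / 2

/-- `F` is a proper smooth function that decreases along `X` on `{F ≤ 1}`. -/
structure IsLy (F : Uh → ℝ) (X : Uh → Uh) : Prop where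
  sF : ContDiff ℝ ∞ F
  sX : ContDiff ℝ ∞ X
  nonneg : ∀ x, 0 ≤ F x
  bdd : ∃ R, ∀ x, R ≤ ‖x‖ → 1 < F x
  dec : ∀ x, F x ≤ 1 → fderiv ℝ F x (X x) ≤ 0
  str : ∀ x, F x ≤ 1 → 0 < F x → fderiv ℝ F x (X x) < 0

/-- the slice -/
def Sl (F : Uh → ℝ) : Set Uh := {x | F x ≤ 1 / 2 ∧ ∃ r : ℝ, 0 ≤ r ∧ (pl x).1 = -r}

/-- The flow `Φ` of `X` on `{F ≤ 1}`, the base `Z` and the null homotopy `N` of the return map. -/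
structure IsSf (F : Uh → ℝ) (X : Uh → Uh) (Φ : ℝ × Uh → Uh) (Z : Set Uh) (N : ℝ × Uh → Uh) :
    Prop where
  ly : IsLy F X
  invF : ∀ g x, F (ρU g x) = F x
  eqX : ∀ g x, X (ρU g x) = ρU g (X x)
  sΦ : ContDiff ℝ ∞ Φ
  zero : ∀ x, Φ (0, x) = x
  add : ∀ s t x, Φ (s + t, x) = Φ (s, Φ (t, x))
  eqΦ : ∀ g t x, Φ (t, ρU g x) = ρU g (Φ (t, x))
  der : ∀ x, F x ≤ 1 → ∀ t, 0 ≤ t → HasDerivAt (fun s => Φ (s, x)) (X (Φ (t, x))) t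
  anti : ∀ x, F x ≤ 1 → ∀ t, 0 ≤ t → F (Φ (t, x)) ≤ F x
  lt : ∀ x, F x ≤ 1 → 0 < F x → ∀ t, 0 < t → F (Φ (t, x)) < F x
  rot : ∀ x, F x ≤ 1 → ∀ t, 0 ≤ t → ∃ a : ℝ, 0 < a ∧ (pl (Φ (t, x))).1 = a * ee t * (pl x).1
  axis : ∀ x, F x ≤ 1 → ‖(pl x).1‖ ≤ 1 / 8 → ∀ t, 0 ≤ t →
    ‖(pl (Φ (t, x))).1‖ ≤ ‖(pl x).1‖ ∧ ‖Φ (t, x)‖ ≤ Real.exp (-t) * ‖x‖
  Zsub : ∀ x ∈ Z, F x ≤ 1 / 2
  Zax : ∀ x, F x ≤ 1 / 2 → ‖(pl x).1‖ ≤ 1 / 4 → x ∈ Z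
  ZG : ∀ g, ∀ x ∈ Z, ρU g x ∈ Z
  ZΦ : ∀ x ∈ Z, ∀ t, 0 ≤ t → Φ (t, x) ∈ Z
  Zw : ∀ w p v, mk (w, p) v ∈ Z → ∀ u ∈ Icc (0 : ℝ) 1, mk ((u : ℂ) * w, p) v ∈ Z
  Zp : ∀ p v, mk (0, p) v ∈ Z → ∀ u ∈ Icc (0 : ℝ) 1, u • mk (0, p) v ∈ Z
  cN : ContinuousOn N (Icc 0 1 ×ˢ Sl F)
  N0 : ∀ x ∈ Sl F, N (0, x) = Φ (1, x)
  NS : ∀ s ∈ Icc (0 : ℝ) 1, ∀ x ∈ Sl F, F (N (s, x)) ≤ 1 / 2 ∧
    ∃ a : ℝ, 0 < a ∧ (pl (N (s, x))).1 = a * (pl x).1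
  NZ : ∀ s ∈ Icc (0 : ℝ) 1, ∀ x ∈ Sl F, x ∈ Z → N (s, x) ∈ Z
  N1 : ∀ x ∈ Sl F, N (1, x) ∈ Z

/-- The contraction `H` from the time `K` map to `0`, and the retraction `r`. -/
structure IsCtr (F : Uh → ℝ) (Φ : ℝ × Uh → Uh) (K : ℕ) (H : ℝ × EB5 × Uh → Uh)
    (r : EB5 × Uh → Uh) : Prop where
  five : 5 ≤ K
  cont : ContinuousOn H {y | y.2.1 ∈ B5 ∧ F y.2.2 ≤ 1 / 2}
  zero : ∀ u ≤ 0, ∀ b ∈ B5, ∀ x, F x ≤ 1 / 2 → H (u, b, x) = Φ (K, x)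
  one : ∀ u, 1 ≤ u → ∀ b ∈ B5, ∀ x, F x ≤ 1 / 2 → H (u, b, x) = 0
  mem : ∀ u, ∀ b ∈ B5, ∀ x, F x ≤ 1 / 2 → F (H (u, b, x)) ≤ 1 / 2
  eq : ∀ g u, ∀ b ∈ B5, ∀ x, F x ≤ 1 / 2 → H (u, β5 g b, ρU g x) = ρU g (H (u, b, x))
  rot : ∀ u, ∀ b ∈ B5, ∀ x, F x ≤ 1 / 2 → ∃ a : ℝ, 0 ≤ a ∧ (pl (H (u, b, x))).1 = a * (pl x).1
  axis : ∀ u, ∀ b ∈ B5, ∀ x, F x ≤ 1 / 2 → ‖(pl x).1‖ ≤ 1 / 8 → ‖H (u, b, x)‖ ≤ ‖x‖
  retr : IsRetr ρU (fun x => F x - 1 / 2) r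

/-- The flow near its closed orbits: `rr` is the radial flow, `yy` the flow in the fibre. -/
structure IsLoc (F : Uh → ℝ) (Φ : ℝ × Uh → Uh) (rr : ℝ × ℝ → ℝ) (yy : ℝ × Vf → Vf) : Prop where
  crr : Continuous rr
  rr_zero : ∀ r, rr (0, r) = r
  rr_add : ∀ s t r, rr (s + t, r) = rr (s, rr (t, r))
  rr_one : ∀ t, rr (t, 1) = 1
  rr_lt : ∀ t, 0 < t → ∀ r ∈ Ioo (3 / 4 : ℝ) (5 / 4), r ≠ 1 → |rr (t, r) - 1| < |r - 1|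
  cyy : Continuous yy
  yy_zero : ∀ v, yy (0, v) = v
  yy_add : ∀ s t v, yy (s + t, v) = yy (s, yy (t, v))
  yy_eq : ∀ g t v, yy (t, ρV g v) = ρV g (yy (t, v))
  yy_q : ∀ t, 0 ≤ t → ∀ v, q v ≤ 1 / 2 → q (yy (t, v)) ≤ q v
  yy_fix : ∀ t v, q v = 0 → yy (t, v) = v
  yy_sink : ∃ δ > 0, ∀ c u u₀, q (ln c u₀) = 0 → u ≠ u₀ → ‖ln c u - ln c u₀‖ < δ → ∀ t, 0 < t →
    ‖yy (t, ln c u) - ln c u₀‖ < ‖ln c u - ln c u₀‖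
  memw : ∀ r ∈ Ioo (3 / 4 : ℝ) (5 / 4), ∀ s ∈ Icc (0 : ℝ) D.s₀, ∀ p ∈ D.C₀, ∀ v, q v ≤ 1 / 2 →
    F (mk (-r * ee s, p) v) = q v
  win : ∀ r ∈ Ioo (3 / 4 : ℝ) (5 / 4), ∀ s t : ℝ, 0 ≤ s → 0 ≤ t → s + t ≤ D.s₀ → ∀ p ∈ D.C₀,
    ∀ v, q v ≤ 1 / 2 →
    Φ (t, mk (-r * ee s, p) v) = mk (-(rr (t, r) : ℝ) * ee (s + t), p) (yy (t, v))
  turn : ∀ r ∈ Ioo (3 / 4 : ℝ) (5 / 4), ∀ ε, ∀ p ∈ D.C ε, ∀ v, q v ≤ 1 / 2 →
    Φ (1, mk (-r, p) v) = mk (-(rr (1, r) : ℝ), D.H ε p) (Dth (ind ε) (yy (1, v)))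
  lab : ∀ ε, ∀ p ∈ D.C ε, ∀ v, q v = 0 → ∀ t ∈ Icc (0 : ℝ) 1,
    Dth (D.Θ (pl (Φ (t, mk (-1, p) v)))) (Φ (t, mk (-1, p) v)).snd = Dth (stp D.s₀ t * ind ε) v
  per : ∀ x, F x ≤ 1 / 2 → (pl x).1 ≠ 0 → ∀ T, 0 < T → Φ (T, x) = x → ∀ t, 0 ≤ t →
    ‖(pl (Φ (t, x))).1‖ = 1 ∧ ((pl (Φ (t, x))).1 = -1 →
      (∃ ε, (pl (Φ (t, x))).2 ∈ D.C ε) ∧ q (Φ (t, x)).snd = 0)

/-! ### statements -/

/-- Q: the fibre. -/
def StQ : Prop := ∃ q Y Bs Ds, IsFb q Y Bs Ds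

/-- P: the planar model. -/
def StP : Prop := ∃ D, IsPl D ∧ IsCore D

/-- F1: the Lyapunov inequalities, invariance. -/
def StLy : Prop := ∀ D q Y Bs Ds, IsPl D → IsFb q Y Bs Ds →
  (∀ l ∈ Icc (0 : ℝ) 2, IsLy (Fb D q l) (Xb D Y l)) ∧
    (ContDiff ℝ ∞ fun y : ℝ × Uh => Fb D q y.1 y.2) ∧
    (ContDiff ℝ ∞ fun y : ℝ × Uh => Xb D Y y.1 y.2) ∧
    (∃ R, ∀ l ∈ Icc (0 : ℝ) 2, ∀ x, R ≤ ‖x‖ → 1 < Fb D q l x) ∧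
    IsLy (Ft D q) (Xt D Y) ∧ (∀ g x, Ft D q (ρU g x) = Ft D q x) ∧
    ∀ g x, Xt D Y (ρU g x) = ρU g (Xt D Y x)

/-- F2: the path to the ball. -/
def StPath : Prop := ∀ D q Y Bs Ds, IsPl D → IsFb q Y Bs Ds →
  Top.Joined (φ0 D q) fun x => ‖x‖ ^ 2 - 1

/-- C: the flow, the base, the null homotopy, the local description. -/
def StSf : Prop := ∀ D q Y Bs Ds, IsPl D → IsCore D → IsFb q Y Bs Ds →
  ∃ Φ Z N rr yy, IsSf (Ft D q) (Xt D Y) Φ Z N ∧ IsLoc D q (Ft D q) Φ rr yy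

/-- H: the contraction and the retraction. -/
def StCtr : Prop := ∀ F X Φ Z N, IsSf F X Φ Z N → ∃ K H r, IsCtr F Φ K H r

/-- B0: the count. -/
def StB0 : Prop := ∀ (n : NFun) (w : WFun) (c : ZMod 5), c ≠ 0 → IsN n → IsW w → Loc n w c →
  ∀ D q Y Bs Ds F X Φ Z N K H r rr yy, IsCore D → IsFb q Y Bs Ds → IsSf F X Φ Z N →
    IsCtr F Φ K H r → IsLoc D q F Φ rr yy → ¬ AZero n ρU fun x => F x - 1 / 2

/-- Theorem B with the path. -/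
def StB : Prop := ∃ φ₀ : Uh → ℝ, (∀ g x, φ₀ (ρU g x) = φ₀ x) ∧
  Top.Joined φ₀ (fun x => ‖x‖ ^ 2 - 1) ∧ ∀ (n : NFun) (w : WFun) (c : ZMod 5), c ≠ 0 → IsN n → IsW w → Loc n w c → ¬ AZero n ρU φ₀

theorem stB_of (hQ : StQ) (hP : StP) (hL : StLy) (hJ : StPath) (hS : StSf) (hH : StCtr)
    (hB : StB0) : StB := by
  obtain ⟨q, Y, Bs, Ds, hq⟩ := hQ
  obtain ⟨D, hD, hC⟩ := hP
  obtain ⟨Φ, Z, N, rr, yy, h1, h2⟩ := hS D q Y Bs Ds hD hC hq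
  obtain ⟨K, H, r, h3⟩ := hH _ _ _ _ _ h1
  refine ⟨φ0 D q, fun g x => ?_, hJ D q Y Bs Ds hD hq, fun n w c hc hn hw hl => ?_⟩
  · simp only [φ0, (hL D q Y Bs Ds hD hq).2.2.2.2.2.1 g x]
  · exact hB n w c hc hn hw hl D q Y Bs Ds _ _ Φ Z N K H r rr yy hC hq h1 h3 h2

theorem finrank_Uh : Module.finrank ℝ Uh = 14 + 2 := by
  rw [(WithLp.linearEquiv 2 ℝ _).finrank_eq, Module.finrank_prod,
    (WithLp.linearEquiv 2 ℝ (ℂ × ℂ)).finrank_eq, Module.finrank_prod, Complex.finrank_real_complex,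
    (WithLp.linearEquiv 2 ℝ (Option (ZMod 5) → ℂ)).finrank_eq, Module.finrank_pi_fintype]
  simp [Complex.finrank_real_complex]

end Vale.Agent.P220Z.Hf
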